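import Mathlib

/-!
# P057: powers of the Vandermonde determinant kill sequences with small values
-/

namespace Vale.Agent.P057.H327

open Polynomial Finset

/-- the shift -/
def T : (ℕ → ℤ) →ₗ[ℤ] (ℕ → ℤ) where
  toFun u := fun j => u (j + 1)
  map_add' _ _ := rfl
  map_smul' _ _ := rfl

theorem T_pow (m : ℕ) (u : ℕ → ℤ) (j : ℕ) : (T ^ m) u j = u (j + m) := by
  induction m generalizing u j with
  | zero => simp
  | succ m ih =>
    rw [pow_succ', Module.End.mul_apply]
    change (T ^ m) u (j + 1) = _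
    rw [ih]
    congr 1
    omega

/-- the action of a polynomial in the shift -/
noncomputable def act (P : ℤ[X]) : (ℕ → ℤ) →ₗ[ℤ] (ℕ → ℤ) := aeval T P

theorem act_mul (P Q : ℤ[X]) (u : ℕ → ℤ) : act (P * Q) u = act P (act Q u) := by
  unfold act; rw [map_mul]; rfl

theorem act_X_pow (m : ℕ) (u : ℕ → ℤ) (j : ℕ) : act (X ^ m) u j = u (j + m) := by
  unfold act; rw [map_pow, aeval_X, T_pow]

theorem act_apply (P : ℤ[X]) (u : ℕ → ℤ) (j : ℕ) :
    act P u j = ∑ m ∈ range (P.natDegree + 1), P.coeff m * u (j + m) := by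
  unfold act
  rw [aeval_eq_sum_range, LinearMap.sum_apply, Finset.sum_apply]
  refine Finset.sum_congr rfl fun m _ => ?_
  rw [LinearMap.smul_apply, Pi.smul_apply, T_pow, smul_eq_mul]

theorem window (P : ℤ[X]) (f : ℕ → ℤ) (q : ℤ) (j : ℕ)
    (h : ∀ m ≤ P.natDegree, q ∣ f (j + m)) : q ∣ act P f j := by
  rw [act_apply]
  exact Finset.dvd_sum fun m hm => (h m (by rw [Finset.mem_range] at hm; omega)).mul_left _

theorem act_fwd (N r : ℕ) (u : ℕ → ℤ) : (fwdDiff N)^[r] u = act ((X ^ N - 1) ^ r) u := by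
  induction r with
  | zero => simp [act]
  | succ r ih =>
    rw [Function.iterate_succ_apply', ih, pow_succ', act_mul]
    generalize act ((X ^ N - 1) ^ r) u = v
    funext j
    unfold act
    rw [map_sub, map_pow, aeval_X, map_one, LinearMap.sub_apply, Pi.sub_apply, T_pow]
    rfl

/-- operator norm -/
def Op (P : ℤ[X]) (B : ℕ) : Prop :=
  ∀ (f : ℕ → ℤ) (h : ℤ), (∀ i, |f i| ≤ h) → ∀ j, |act P f j| ≤ B * h

theorem Op.mul {P Q : ℤ[X]} {B C : ℕ} (hP : Op P B) (hQ : Op Q C) : Op (P * Q) (B * C) := by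
  intro f h hf j
  rw [act_mul]
  have := hP (act Q f) (C * h) (hQ f h hf) j
  push_cast
  rwa [mul_assoc]

theorem Op.pow {P : ℤ[X]} {B : ℕ} (hP : Op P B) (r : ℕ) : Op (P ^ r) (B ^ r) := by
  induction r with
  | zero =>
    intro f h hf j
    simpa [act] using hf j
  | succ r ih => rw [pow_succ, pow_succ]; exact ih.mul hP

theorem Op.sum {ι : Type*} (s : Finset ι) (P : ι → ℤ[X]) (h : ∀ i ∈ s, Op (P i) 1) :
    Op (∑ i ∈ s, P i) s.card := by
  classical
  induction s using Finset.induction_on with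
  | empty =>
    intro f h hf j
    simp [act]
  | insert a s ha ih =>
    intro f b hf j
    rw [Finset.sum_insert ha, Finset.card_insert_of_notMem ha]
    have h1 := h a (Finset.mem_insert_self _ _) f b hf j
    have h2 := ih (fun i hi => h i (Finset.mem_insert_of_mem hi)) f b hf j
    have h3 : act (P a + ∑ i ∈ s, P i) f j = act (P a) f j + act (∑ i ∈ s, P i) f j := by
      unfold act; rw [map_add]; rfl
    rw [h3]
    have h4 := abs_add_le (act (P a) f j) (act (∑ i ∈ s, P i) f j)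
    push_cast at h1 ⊢
    linarith

theorem Op.shift {P : ℤ[X]} {B a : ℕ} (h : Op (X ^ a * P) B) : Op P B := by
  intro f b hf j
  have h1 := h (fun i => f (i - a)) b (fun i => hf _) j
  have h2 : act (X ^ a * P) (fun i => f (i - a)) j = act P f j := by
    rw [mul_comm, act_mul]
    have h3 : act (X ^ a) (fun i => f (i - a)) = f := by
      funext i
      rw [act_X_pow]
      simp
    rw [h3]
  rwa [h2] at h1

/-- the Vandermonde polynomial -/
noncomputable def G (n : ℕ) : ℤ[X] := ∏ i : Fin n, ∏ j ∈ Ioi i, (X ^ ((j : ℕ) - (i : ℕ)) - 1)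

theorem G_op (n : ℕ) : Op (G n) n.factorial := by
  have h1 : ∃ a : ℕ, (Matrix.vandermonde fun i : Fin n => (X : ℤ[X]) ^ (i : ℕ)).det = X ^ a * G n := by
    refine ⟨∑ i : Fin n, ∑ j ∈ Ioi i, (i : ℕ), ?_⟩
    rw [Matrix.det_vandermonde, G, ← Finset.prod_pow_eq_pow_sum, ← Finset.prod_mul_distrib]
    refine Finset.prod_congr rfl fun i _ => ?_
    rw [← Finset.prod_pow_eq_pow_sum, ← Finset.prod_mul_distrib]
    refine Finset.prod_congr rfl fun j hj => ?_
    have hij : (i : ℕ) < j := by rw [Finset.mem_Ioi] at hj; exact hj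
    rw [mul_sub, mul_one, ← pow_add]
    congr 2
    omega
  obtain ⟨a, ha⟩ := h1
  apply Op.shift (a := a)
  rw [← ha, Matrix.det_apply]
  have h2 := Op.sum (Finset.univ : Finset (Equiv.Perm (Fin n)))
    (fun σ => Equiv.Perm.sign σ • ∏ i, (Matrix.vandermonde fun i : Fin n => (X : ℤ[X]) ^ (i : ℕ)) (σ i) i) (by
      intro σ _
      intro f h hf j
      have h3 : (∏ i, (Matrix.vandermonde fun i : Fin n => (X : ℤ[X]) ^ (i : ℕ)) (σ i) i) =
          X ^ (∑ i : Fin n, (σ i : ℕ) * (i : ℕ)) := by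
        rw [← Finset.prod_pow_eq_pow_sum]
        refine Finset.prod_congr rfl fun i _ => ?_
        rw [Matrix.vandermonde_apply, pow_mul]
      rw [h3]
      rcases Int.units_eq_one_or (Equiv.Perm.sign σ) with h4 | h4
      · rw [h4, one_smul, act_X_pow]
        simpa using hf _
      · rw [h4]
        have h5 : act (((-1 : ℤˣ)) • (X : ℤ[X]) ^ (∑ i : Fin n, (σ i : ℕ) * (i : ℕ))) f j =
            - act (X ^ (∑ i : Fin n, (σ i : ℕ) * (i : ℕ))) f j := by
          rw [Units.neg_smul, one_smul]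
          unfold act; rw [map_neg]; rfl
        rw [h5, act_X_pow, abs_neg]
        simpa using hf _)
  rw [Finset.card_univ, Fintype.card_perm, Fintype.card_fin] at h2
  exact h2

theorem sum_E (n : ℕ) : ∑ i : Fin n, (Ioi i).card = n * (n - 1) / 2 := by
  have h1 : ∀ i : Fin n, (Ioi i).card = n - 1 - (i : ℕ) := fun i => by rw [Fin.card_Ioi]
  rw [Finset.sum_congr rfl fun i _ => h1 i, Fin.sum_univ_eq_sum_range (fun i => n - 1 - i) n,
    Finset.sum_range_reflect (fun i => i) n, Finset.sum_range_id]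

theorem prod_const_E (n : ℕ) (P : ℤ[X]) : ∏ i : Fin n, ∏ _j ∈ Ioi i, P = P ^ (n * (n - 1) / 2) := by
  rw [← sum_E n, ← Finset.prod_pow_eq_pow_sum]
  exact Finset.prod_congr rfl fun i _ => by rw [Finset.prod_const]

theorem dvd_G (n : ℕ) : (X - 1 : ℤ[X]) ^ (n * (n - 1) / 2) ∣ G n := by
  rw [← prod_const_E, G]
  refine Finset.prod_dvd_prod_of_dvd _ _ fun i _ => Finset.prod_dvd_prod_of_dvd _ _ fun j _ => ?_
  simpa using sub_dvd_pow_sub_pow (X : ℤ[X]) 1 ((j : ℕ) - i)

theorem G_dvd (n : ℕ) : G n ∣ (X ^ n.factorial - 1 : ℤ[X]) ^ (n * (n - 1) / 2) := by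
  rw [← prod_const_E, G]
  refine Finset.prod_dvd_prod_of_dvd _ _ fun i _ => Finset.prod_dvd_prod_of_dvd _ _ fun j hj => ?_
  have hij : (i : ℕ) < j := by rw [Finset.mem_Ioi] at hj; exact hj
  obtain ⟨c, hc⟩ := Nat.dvd_factorial (m := (j : ℕ) - i) (n := n) (by omega) (by omega)
  rw [hc, pow_mul]
  simpa using sub_dvd_pow_sub_pow ((X : ℤ[X]) ^ ((j : ℕ) - i)) 1 c

theorem vand_kill (n r D k p h : ℕ) (hn : 2 ≤ n) (hr : D + 1 ≤ r * (n*(n-1)/2))
    (hp : n.factorial ^ r * h < p) (u : ℕ → ℤ) (hu : ∀ j < k, |u j| ≤ h)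
    (hd : ∀ j, j + (D+1) < k → (p:ℤ) ∣ (fwdDiff 1)^[D+1] u j) :
    ∀ j, j + n.factorial * (r * (n*(n-1)/2)) < k →
      (fwdDiff n.factorial)^[r * (n*(n-1)/2)] u j = 0 := by
  intro j hj
  set E := n * (n - 1) / 2 with hE
  have hN0 : n.factorial ≠ 0 := Nat.factorial_ne_zero n
  let u' : ℕ → ℤ := fun j => if j < k then u j else 0
  have hu' : ∀ j < k, u' j = u j := fun j hj => if_pos hj
  have hb : ∀ i, |u' i| ≤ (h : ℤ) := by
    intro i
    by_cases hi : i < k
    · rw [hu' i hi]; exact hu i hi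
    · have : u' i = 0 := if_neg hi
      rw [this, abs_zero]; positivity
  -- locality
  have hloc : ∀ (P : ℤ[X]) (i : ℕ), i + P.natDegree < k → act P u i = act P u' i := by
    intro P i hi
    rw [act_apply, act_apply]
    refine Finset.sum_congr rfl fun m hm => ?_
    rw [Finset.mem_range] at hm
    rw [hu' (i + m) (by omega)]
  have hnd : ∀ N s : ℕ, N ≠ 0 → ((X ^ N - 1 : ℤ[X]) ^ s).natDegree = N * s := by
    intro N s hN
    rw [natDegree_pow, ← C_1, natDegree_X_pow_sub_C, mul_comm]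
  have hne : ∀ N s : ℕ, N ≠ 0 → ((X ^ N - 1 : ℤ[X]) ^ s) ≠ 0 := by
    intro N s hN
    apply pow_ne_zero
    rw [← C_1]
    exact X_pow_sub_C_ne_zero (Nat.pos_of_ne_zero hN) 1
  -- the big polynomial
  obtain ⟨V, hV⟩ : G n ^ r ∣ (X ^ n.factorial - 1 : ℤ[X]) ^ (r * E) := by
    rw [mul_comm, pow_mul]
    exact pow_dvd_pow_of_dvd (G_dvd n) r
  have hVG : V ≠ 0 ∧ G n ^ r ≠ 0 := by
    have := hne n.factorial (r * E) hN0
    rw [hV] at this
    exact ⟨right_ne_zero_of_mul this, left_ne_zero_of_mul this⟩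
  have hdeg : (G n ^ r).natDegree + V.natDegree = n.factorial * (r * E) := by
    rw [← natDegree_mul hVG.2 hVG.1, ← hV, hnd _ _ hN0]
  obtain ⟨W, hW⟩ : (X ^ 1 - 1 : ℤ[X]) ^ (D + 1) ∣ G n ^ r := by
    rw [pow_one]
    refine (pow_dvd_pow _ hr).trans ?_
    rw [mul_comm, pow_mul]
    exact pow_dvd_pow_of_dvd (dvd_G n) r
  have hW0 : W ≠ 0 := by
    have := hVG.2
    rw [hW] at this
    exact right_ne_zero_of_mul this
  have hdegW : (G n ^ r).natDegree = (D + 1) + W.natDegree := by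
    rw [hW, natDegree_mul (hne 1 _ one_ne_zero) hW0, hnd 1 _ one_ne_zero, one_mul]
  -- step 1
  have hg : ∀ i, i + (G n ^ r).natDegree < k → act (G n ^ r) u' i = 0 := by
    intro i hi
    have h1 : (p : ℤ) ∣ act (G n ^ r) u' i := by
      rw [hW, mul_comm, act_mul]
      apply window
      intro m hm
      rw [← hloc _ _ (by rw [hnd 1 _ one_ne_zero]; omega), ← act_fwd]
      exact hd _ (by omega)
    have h2 := (G_op n).pow r u' h hb i
    have h3 : |act (G n ^ r) u' i| < p := by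
      refine h2.trans_lt ?_
      exact_mod_cast hp
    exact Int.eq_zero_of_abs_lt_dvd h1 h3
  rw [act_fwd, hloc _ _ (by rw [hnd _ _ hN0]; exact hj), hV, mul_comm, act_mul]
  have h4 : (0 : ℤ) ∣ act V (act (G n ^ r) u') j := by
    apply window
    intro m hm
    rw [hg (j + m) (by omega)]
  exact zero_dvd_iff.1 h4

end Vale.Agent.P057.H327
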