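import Vale.Agent.P057.Bdl.B1
import Vale.Agent.P057.H327.Vand

/-!
# P057: sequences with periodic residues modulo a highly divisible number are genuine
-/

namespace Vale.Agent.P057.H327

open Polynomial Finset Vale.Agent.P057.Lower

theorem d_sub (n : ℕ) (f g : ℕ → ℤ) (j : ℕ) :
    (fwdDiff 1)^[n] (f - g) j = (fwdDiff 1)^[n] f j - (fwdDiff 1)^[n] g j := by
  rw [act_fwd, act_fwd, act_fwd, map_sub]; rfl

theorem d_add (n : ℕ) (f g : ℕ → ℤ) (j : ℕ) :
    (fwdDiff 1)^[n] (f + g) j = (fwdDiff 1)^[n] f j + (fwdDiff 1)^[n] g j := by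
  rw [act_fwd, act_fwd, act_fwd, map_add]; rfl

theorem d_shift (n : ℕ) (f : ℕ → ℤ) (N : ℕ) : ∀ j : ℕ,
    (fwdDiff 1)^[n] (fun i => f (i + N)) j = (fwdDiff 1)^[n] f (j + N) := by
  induction n with
  | zero => intro j; rfl
  | succ n ih =>
    intro j
    have e : j + N + 1 = j + 1 + N := by omega
    rw [fwdDiff_succ_apply, fwdDiff_succ_apply, ih, ih, e]

theorem d_choose (c : ℤ) (n : ℕ) : ∀ m j : ℕ,
    (fwdDiff 1)^[n] (fun i : ℕ => c * ((i.choose (m + n) : ℕ) : ℤ)) j =
      c * ((j.choose m : ℕ) : ℤ) := by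
  induction n with
  | zero => intro m j; rfl
  | succ n ih =>
    intro m j
    have e : m + (n + 1) = (m + 1) + n := by omega
    rw [fwdDiff_succ_apply, e, ih, ih, Nat.choose_succ_succ]
    push_cast
    ring

theorem d_const (n : ℕ) (c : ℤ) : ∀ j : ℕ, (fwdDiff 1)^[n + 1] (fun _ : ℕ => c) j = 0 := by
  induction n with
  | zero => intro j; rw [fwdDiff_succ_apply]; simp
  | succ n ih => intro j; rw [fwdDiff_succ_apply, ih, ih, sub_zero]

theorem dvd_d (q : ℤ) (n : ℕ) (f : ℕ → ℤ) : ∀ j, (∀ i, j ≤ i → i ≤ j + n → q ∣ f i) →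
    q ∣ (fwdDiff 1)^[n] f j := by
  induction n with
  | zero => intro j h; exact h j le_rfl le_rfl
  | succ n ih =>
    intro j h
    rw [fwdDiff_succ_apply]
    exact dvd_sub (ih (j + 1) fun i hi hi' => h i (by omega) (by omega))
      (ih j fun i hi hi' => h i (by omega) (by omega))

/-- integral solution of `g (j + N) - g j = f j` for polynomial `f` divisible by `N ^ D` -/
theorem exists_g (N : ℕ) (D : ℕ) : ∀ (K : ℕ) (f : ℕ → ℤ),
    (∀ j, j + D < K → (fwdDiff 1)^[D] f j = 0) → (∀ j < K, (N : ℤ) ^ D ∣ f j) →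
    ∃ g : ℕ → ℤ, (∀ j, (fwdDiff 1)^[D + 1] g j = 0) ∧ ∀ j < K, g (j + N) - g j = f j := by
  induction D with
  | zero =>
    intro K f h0 _
    refine ⟨fun _ => 0, fun j => d_const 0 0 j, fun j hj => ?_⟩
    have h1 : f j = 0 := h0 j (by omega)
    rw [h1, sub_zero]
  | succ D ih =>
    intro K f h0 hdvd
    by_cases hK : K ≤ D
    · obtain ⟨g, h1, h2⟩ := ih K f (fun j hj => by omega)
        (fun j hj => (pow_dvd_pow _ (Nat.le_succ D)).trans (hdvd j hj))
      exact ⟨g, fun j => by rw [fwdDiff_succ_apply, h1, h1, sub_zero], h2⟩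
    · have hK' : D < K := by omega
      obtain ⟨c1, hc1⟩ : (N : ℤ) ^ (D + 1) ∣ (fwdDiff 1)^[D] f 0 :=
        dvd_d _ D f 0 (fun i _ hi => hdvd i (by omega))
      obtain ⟨c', hc'⟩ : ∃ c' : ℤ, c' = (N : ℤ) ^ D * c1 := ⟨_, rfl⟩
      have hconst : ∀ j, j + D < K → (fwdDiff 1)^[D] f j = N * c' := by
        intro j
        induction j with
        | zero => intro _; rw [hc1, hc', pow_succ]; ring
        | succ j ihj =>
          intro hj
          have h3 := h0 j (by omega)
          rw [fwdDiff_succ_apply] at h3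
          have h4 := ihj (by omega)
          linarith
      obtain ⟨g0, hg0def⟩ : ∃ g0 : ℕ → ℤ, g0 = fun i : ℕ => c' * ((i.choose (1 + D) : ℕ) : ℤ) :=
        ⟨_, rfl⟩
      have hg0 : ∀ j, (fwdDiff 1)^[D] g0 j = c' * (j : ℤ) := fun j => by
        rw [hg0def, d_choose c' D 1 j, Nat.choose_one_right]
      have hdg0 : ∀ j, (N : ℤ) ^ D ∣ g0 j := fun j => by
        rw [hg0def, hc']
        exact ⟨c1 * ((j.choose (1 + D) : ℕ) : ℤ), by ring⟩
      obtain ⟨g1, h1, h2⟩ := ih K (f - ((fun i => g0 (i + N)) - g0)) (by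
        intro j hj
        rw [d_sub, d_sub, d_shift, hg0, hg0, hconst j hj]
        push_cast
        ring) (by
        intro j hj
        exact dvd_sub ((pow_dvd_pow _ (Nat.le_succ D)).trans (hdvd j hj))
          (dvd_sub (hdg0 _) (hdg0 _)))
      refine ⟨g0 + g1, fun j => ?_, fun j hj => ?_⟩
      · have h3 : ∀ j, (fwdDiff 1)^[D + 1] g0 j = c' := fun j => by
          rw [fwdDiff_succ_apply, hg0, hg0]; push_cast; ring
        rw [d_add, fwdDiff_succ_apply, h3, h3, fwdDiff_succ_apply, h1, h1]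
        ring
      · have h3 := h2 j hj
        change g1 (j + N) - g1 j = f j - (g0 (j + N) - g0 j) at h3
        change g0 (j + N) + g1 (j + N) - (g0 j + g1 j) = f j
        linarith

/-- a polynomial of degree `≤ D` does not oscillate `D + 1` times -/
theorem no_osc (P : ℝ[X]) (D N a : ℕ) (ha : 0 < a) (haN : a < N) (hP : P.natDegree ≤ D) (c : ℝ)
    (h1 : ∀ m ≤ D, P.eval ((m * N : ℕ) : ℝ) ≤ c)
    (h2 : ∀ m ≤ D, c < P.eval ((a + m * N : ℕ) : ℝ)) : False := by
  have h3 : ∀ m : Fin (D + 1), ∃ x : ℝ, ((m * N : ℕ) : ℝ) ≤ x ∧ x ≤ ((a + m * N : ℕ) : ℝ) ∧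
      P.eval x = c := by
    intro m
    have hle : (((m : ℕ) * N : ℕ) : ℝ) ≤ ((a + m * N : ℕ) : ℝ) := by
      exact_mod_cast (by omega : (m : ℕ) * N ≤ a + m * N)
    obtain ⟨x, hx, hx'⟩ := intermediate_value_Icc hle
      (f := fun x => P.eval x) P.continuous.continuousOn
      ⟨h1 m (by omega), (h2 m (by omega)).le⟩
    exact ⟨x, hx.1, hx.2, hx'⟩
  choose x hx1 hx2 hx3 using h3
  have hinj : Function.Injective x := by
    intro m m' h
    by_contra hne
    have key : ∀ m m' : Fin (D + 1), (m : ℕ) < m' → x m < x m' := by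
      intro m m' hlt
      have h4 : a + m * N < m' * N := by
        have : ((m : ℕ) + 1) * N ≤ m' * N := Nat.mul_le_mul_right N hlt
        nlinarith
      have h5 : ((a + m * N : ℕ) : ℝ) < (((m' : ℕ) * N : ℕ) : ℝ) := by exact_mod_cast h4
      linarith [hx2 m, hx1 m']
    rcases lt_or_gt_of_ne (fun h => hne (Fin.ext h) : (m : ℕ) ≠ m') with h4 | h4
    · exact absurd h (key m m' h4).ne
    · exact absurd h (key m' m h4).ne'
  have h4 : P - C c = 0 := by
    apply Polynomial.eq_zero_of_natDegree_lt_card_of_eval_eq_zero (P - C c) hinj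
    · intro m
      rw [eval_sub, eval_C, hx3, sub_self]
    · rw [Fintype.card_fin]
      have : (P - C c).natDegree ≤ D := by
        refine (natDegree_sub_le _ _).trans ?_
        rw [natDegree_C]
        exact max_le hP (Nat.zero_le _)
      omega
  have h5 := h2 0 (Nat.zero_le _)
  rw [sub_eq_zero.1 h4, eval_C] at h5
  exact lt_irrefl _ h5

/-- periodic sequences with vanishing differences modulo `p` are constant modulo `p` -/
theorem per_const (k N p : ℕ) (hp : p.Coprime N) (v : ℕ → ℤ)
    (hv : ∀ j, j + N < k → v (j + N) = v j) (n : ℕ) (hk : N + n < k)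
    (h : ∀ j, j + (n + 1) < k → (p : ℤ) ∣ (fwdDiff 1)^[n + 1] v j) :
    ∀ j < k, (p : ℤ) ∣ v j - v 0 := by
  induction n with
  | zero =>
    intro j
    induction j with
    | zero => intro _; simp
    | succ j ih =>
      intro hj
      have h1 := h j (by omega)
      have h2 := ih (by omega)
      have h3 : v (j + 1) - v 0 = (fwdDiff 1)^[0 + 1] v j + (v j - v 0) := by
        rw [fwdDiff_succ_apply]
        simp
      rw [h3]
      exact dvd_add h1 h2
  | succ n ih =>
    apply ih (by omega)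
    have h1 : ∀ j, j + (n + 1) < k →
        (p : ℤ) ∣ (fwdDiff 1)^[n + 1] v j - (fwdDiff 1)^[n + 1] v 0 := by
      intro j
      induction j with
      | zero => intro _; simp
      | succ j ih2 =>
        intro hj
        have h2 := h j (by omega)
        rw [fwdDiff_succ_apply] at h2
        have h3 := dvd_add h2 (ih2 (by omega))
        simpa using h3
    have h2 : ∑ i ∈ range N, (fwdDiff 1)^[n + 1] v i = 0 := by
      have h3 : ∀ i ∈ range N, (fwdDiff 1)^[n + 1] v i =
          (fwdDiff 1)^[n] v (i + 1) - (fwdDiff 1)^[n] v i := fun i _ => fwdDiff_succ_apply n v i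
      rw [Finset.sum_congr rfl h3, Finset.sum_range_sub]
      have h4 := diff_congr n (fun i => v (i + N)) v 0 (fun i _ hi => hv i (by omega))
      rw [d_shift, zero_add] at h4
      rw [h4, sub_self]
    have h3 : (p : ℤ) ∣ N * (fwdDiff 1)^[n + 1] v 0 := by
      have h4 : (p : ℤ) ∣ ∑ i ∈ range N, ((fwdDiff 1)^[n + 1] v i - (fwdDiff 1)^[n + 1] v 0) :=
        Finset.dvd_sum fun i hi => h1 i (by rw [Finset.mem_range] at hi; omega)
      rw [Finset.sum_sub_distrib, h2, Finset.sum_const, Finset.card_range, zero_sub,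
        dvd_neg, nsmul_eq_mul] at h4
      exact h4
    have h4 : (p : ℤ) ∣ (fwdDiff 1)^[n + 1] v 0 := by
      have h5 : IsCoprime (p : ℤ) (N : ℤ) := Nat.isCoprime_iff_coprime.2 hp
      exact h5.dvd_of_dvd_mul_left h3
    intro j hj
    have := dvd_add (h1 j hj) h4
    simpa using this

theorem genuine (k D N p h M : ℕ) (hN : 0 < N) (hM : 2 ^ (D + 1) * N < M) (hND : N ^ D ∣ M)
    (hpM : p.Coprime M) (hpN : p.Coprime N) (hp : 8 * h < p) (hk : N * (D + 3) ≤ k) (u : ℕ → ℤ)
    (hu : ∀ j < k, |u j| ≤ h)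
    (hd : ∀ j, j + (D + 1) < k → (p : ℤ) ∣ (fwdDiff 1)^[D + 1] u j)
    (hper : ∀ j, j + N < k → (M : ℤ) ∣ u (j + N) - u j) :
    ∀ j, j + (D + 1) < k → (fwdDiff 1)^[D + 1] u j = 0 := by
  have hk1 : N + D + 2 ≤ k := by nlinarith
  have hp0 : 0 < p := by omega
  -- quotients
  have hw : ∀ j, ∃ w : ℤ, j + (D + 1) < k → (fwdDiff 1)^[D + 1] u j = p * w ∧ |w| ≤ 2 ^ (D + 1) := by
    intro j
    by_cases hj : j + (D + 1) < k
    · obtain ⟨w, hw⟩ := hd j hj
      refine ⟨w, fun _ => ⟨hw, ?_⟩⟩
      have h1 := abs_diff_le h (D + 1) u j (fun i _ hi => hu i (by omega))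
      rw [hw, abs_mul, Nat.abs_cast] at h1
      have h2 : (h : ℤ) ≤ p := by exact_mod_cast (by omega : h ≤ p)
      have h3 : (p : ℤ) * |w| ≤ p * 2 ^ (D + 1) := by
        refine h1.trans ?_
        rw [mul_comm]
        exact mul_le_mul_of_nonneg_right h2 (by positivity)
      exact le_of_mul_le_mul_left h3 (by exact_mod_cast hp0)
    · exact ⟨0, fun h => absurd h hj⟩
  choose w hw using hw
  have hb : ∀ j, j + N + D < k → (fwdDiff 1)^[D] u (j + N) = (fwdDiff 1)^[D] u j := by
    intro j hj
    have h1 : (fwdDiff 1)^[D] u (j + N) - (fwdDiff 1)^[D] u j = p * ∑ i ∈ range N, w (j + i) := by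
      rw [Finset.mul_sum]
      have h2 : ∀ i ∈ range N, (p : ℤ) * w (j + i) =
          (fwdDiff 1)^[D] u (j + (i + 1)) - (fwdDiff 1)^[D] u (j + i) := by
        intro i hi
        rw [Finset.mem_range] at hi
        rw [← (hw (j + i) (by omega)).1, fwdDiff_succ_apply]
        rfl
      rw [Finset.sum_congr rfl h2, Finset.sum_range_sub (fun i => (fwdDiff 1)^[D] u (j + i))]
      rfl
    have h2 : (M : ℤ) ∣ (fwdDiff 1)^[D] u (j + N) - (fwdDiff 1)^[D] u j := by
      have h3 := dvd_diff_sub (M : ℤ) D (fun i => u (i + N)) u j (fun i hi hi' => hper i (by omega))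
      rwa [d_shift] at h3
    rw [h1] at h2
    have h3 : (M : ℤ) ∣ ∑ i ∈ range N, w (j + i) :=
      (Nat.isCoprime_iff_coprime.2 hpM.symm).dvd_of_dvd_mul_left h2
    have h4 : |∑ i ∈ range N, w (j + i)| < M := by
      have h5 : |∑ i ∈ range N, w (j + i)| ≤ ∑ i ∈ range N, (2 : ℤ) ^ (D + 1) :=
        (Finset.abs_sum_le_sum_abs _ _).trans (Finset.sum_le_sum fun i hi =>
          (hw (j + i) (by rw [Finset.mem_range] at hi; omega)).2)
      rw [Finset.sum_const, Finset.card_range, nsmul_eq_mul] at h5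
      have h6 : (2 : ℤ) ^ (D + 1) * N < M := by exact_mod_cast hM
      linarith
    rw [Int.eq_zero_of_abs_lt_dvd h3 h4, mul_zero] at h1
    linarith
  -- integral polynomial part
  obtain ⟨g, hg1, hg2⟩ := exists_g N D (k - N) ((fun i => u (i + N)) - u) (by
    intro j hj
    rw [d_sub, d_shift, hb j (by omega), sub_self]) (by
    intro j hj
    have h1 : ((N ^ D : ℕ) : ℤ) ∣ (M : ℤ) := by exact_mod_cast hND
    push_cast at h1
    exact h1.trans (hper j (by omega)))
  obtain ⟨v, hv⟩ : ∃ v : ℕ → ℤ, v = u - g := ⟨_, rfl⟩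
  have hvper : ∀ j, j + N < k → v (j + N) = v j := by
    intro j hj
    have h1 := hg2 j (by omega)
    rw [hv]
    change g (j + N) - g j = u (j + N) - u j at h1
    change u (j + N) - g (j + N) = u j - g j
    linarith
  have hvp := per_const k N p hpN v hvper D (by omega) (by
    intro j hj
    rw [hv, d_sub, hg1, sub_zero]
    exact hd j hj)
  have hvm : ∀ m a : ℕ, a + m * N < k → v (a + m * N) = v a := by
    intro m
    induction m with
    | zero => intro a _; simp
    | succ m ih =>
      intro a ha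
      have h1 : a + (m + 1) * N = (a + m * N) + N := by ring
      rw [h1] at ha ⊢
      rw [hvper _ ha, ih a (by omega)]
  obtain ⟨Q, hQ1, hQ2⟩ := exists_poly g k D (fun j _ => hg1 j)
  have hPe : ∀ j < k, (Q.map (algebraMap ℚ ℝ)).eval (j : ℝ) = (g j : ℝ) := by
    intro j hj
    have h1 := hQ2 j hj
    have h2 : (Q.map (algebraMap ℚ ℝ)).eval ((algebraMap ℚ ℝ) (j : ℚ)) = (algebraMap ℚ ℝ) (Q.eval (j : ℚ)) :=
      Polynomial.eval_map_apply (algebraMap ℚ ℝ) (j : ℚ)
    rw [h1] at h2
    simpa using h2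
  have hval : ∀ a < N, v a = v 0 := by
    intro a haN
    by_contra hne
    have ha : 0 < a := by
      rcases Nat.eq_zero_or_pos a with h | h
      · exact absurd (by rw [h]) hne
      · exact h
    have hkN : N * (D + 3) = N * D + 3 * N := by ring
    have hwin : ∀ m ≤ D, a + m * N < k := by
      intro m hm
      have : m * N ≤ D * N := Nat.mul_le_mul_right N hm
      have h3 : D * N = N * D := mul_comm _ _
      omega
    have hgv : ∀ j, g j = u j - v j := fun j => by rw [hv]; simp
    have hdv := hvp a (by omega)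
    have hub : ∀ j < k, -(h : ℤ) ≤ u j ∧ u j ≤ h := fun j hj => abs_le.1 (hu j hj)
    have h8 : (8 : ℤ) * h < p := by exact_mod_cast hp
    rcases lt_or_gt_of_ne hne with hlt | hlt
    · -- v a < v 0
      have h1 : v a - v 0 ≤ -p := by
        obtain ⟨c, hc⟩ := hdv
        have : c < 0 := by
          by_contra h2
          push Not at h2
          have : 0 ≤ (p : ℤ) * c := by positivity
          linarith
        have h3 : (p : ℤ) * c ≤ p * (-1) := mul_le_mul_of_nonneg_left (by omega) (by positivity)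
        linarith
      refine no_osc (Q.map (algebraMap ℚ ℝ)) D N a ha haN (natDegree_map_le.trans hQ1)
        ((g 0 + 2 * h : ℤ) : ℝ) ?_ ?_
      · intro m hm
        have h2 := hwin m hm
        rw [hPe _ (by omega)]
        have h3 := hvm m 0 (by omega)
        rw [zero_add] at h3
        have h4 := hub 0 (by omega)
        have h5 := hub (m * N) (by omega)
        have h6 := hgv 0
        have h7 := hgv (m * N)
        exact_mod_cast (by rw [h3] at h7; linarith : g (m * N) ≤ g 0 + 2 * h)
      · intro m hm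
        have h2 := hwin m hm
        rw [hPe _ (by omega)]
        have h3 := hvm m a (by omega)
        have h4 := hub 0 (by omega)
        have h5 := hub (a + m * N) (by omega)
        have h6 := hgv 0
        have h7 := hgv (a + m * N)
        exact_mod_cast (by rw [h3] at h7; linarith : g 0 + 2 * h < g (a + m * N))
    · have h1 : (p : ℤ) ≤ v a - v 0 := Int.le_of_dvd (by linarith) hdv
      refine no_osc (-(Q.map (algebraMap ℚ ℝ))) D N a ha haN
        (by rw [natDegree_neg]; exact natDegree_map_le.trans hQ1)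
        ((-g 0 + 2 * h : ℤ) : ℝ) ?_ ?_
      · intro m hm
        have h2 := hwin m hm
        rw [eval_neg, hPe _ (by omega)]
        have h3 := hvm m 0 (by omega)
        rw [zero_add] at h3
        have h4 := hub 0 (by omega)
        have h5 := hub (m * N) (by omega)
        have h6 := hgv 0
        have h7 := hgv (m * N)
        exact_mod_cast (by rw [h3] at h7; linarith : -g (m * N) ≤ -g 0 + 2 * h)
      · intro m hm
        have h2 := hwin m hm
        rw [eval_neg, hPe _ (by omega)]
        have h3 := hvm m a (by omega)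
        have h4 := hub 0 (by omega)
        have h5 := hub (a + m * N) (by omega)
        have h6 := hgv 0
        have h7 := hgv (a + m * N)
        exact_mod_cast (by rw [h3] at h7; linarith : -g 0 + 2 * h < -g (a + m * N))
  have hall : ∀ j < k, v j = v 0 := by
    intro j hj
    have h1 : j % N + j / N * N = j := by
      have := Nat.mod_add_div j N
      rw [mul_comm] at this
      exact this
    have h2 := hvm (j / N) (j % N) (by omega)
    rw [h1] at h2
    rw [h2, hval _ (Nat.mod_lt _ hN)]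
  intro j hj
  have h1 : u = v + g := by rw [hv]; simp
  rw [h1, d_add, hg1, add_zero, diff_congr (D + 1) v (fun _ => v 0) j
    (fun i _ hi => hall i (by omega)), d_const]

end Vale.Agent.P057.H327
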