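import Vale.Agent.P057.H203.TowFin

/-!
# P057 : power saving in the number of levels
-/

open Finset Polynomial Vale.Agent.P057.Lower

namespace Vale.Agent.P057.H327

theorem two_pow_big : ∀ L : ℕ, 12 ≤ L → 60 * (2 * L + 14) ≤ 2 ^ L := by
  intro L hL
  induction L, hL using Nat.le_induction with
  | base => norm_num
  | succ L hL ih => rw [pow_succ]; omega

theorem count_big {n : ℕ} (hn : 4096 ≤ n) : 60 * (2 * Nat.log 2 n + 14) ≤ n := by
  have h1 : 2 ^ Nat.log 2 n ≤ n := Nat.pow_log_le_self 2 (by omega)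
  have h2 : 12 ≤ Nat.log 2 n := by
    have : Nat.log 2 4096 ≤ Nat.log 2 n := Nat.log_mono_right hn
    have h3 : Nat.log 2 4096 = 12 := by
      rw [show (4096 : ℕ) = 2 ^ 12 by norm_num]
      exact Nat.log_pow (by norm_num) 12
    omega
  exact (two_pow_big _ h2).trans h1

theorem log_two_small {n : ℕ} (hn : 2 ≤ n) :
    (11 / 10 : ℝ) * Real.log 2 ^ (((n : ℝ) - 1) / n) ≤ 1 := by
  have hn0 : (2 : ℝ) ≤ n := by exact_mod_cast hn
  have h0 : 0 < Real.log 2 := Real.log_pos (by norm_num)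
  have h1 : Real.log 2 ≤ 0.7 := by
    have := Real.log_two_lt_d9
    linarith
  have h2 : (1 : ℝ) / 2 ≤ ((n : ℝ) - 1) / n := by
    rw [div_le_div_iff₀ (by norm_num) (by linarith)]
    linarith
  have h3 : Real.log 2 ^ (((n : ℝ) - 1) / n) ≤ Real.log 2 ^ ((1 : ℝ) / 2) :=
    Real.rpow_le_rpow_of_exponent_ge h0 (by linarith) h2
  have h4 : Real.log 2 ^ ((1 : ℝ) / 2) ≤ 10 / 11 := by
    rw [← Real.sqrt_eq_rpow]
    rw [Real.sqrt_le_left (by norm_num)]
    linarith
  nlinarith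

theorem power_saving (P1 : ∃ n0 : ℕ, ∀ n ≥ n0, ∀ k, 2 ^ (n - 1) < k → ∀ j,
      2 * Nat.log 2 n + 12 ≤ j → 10 * j ≤ n - 1 →
      Cost k (2 ^ j) ((Real.sqrt n)⁻¹ * ((2 ^ j : ℕ) : ℝ) * Real.log 2)) :
    ∃ K : ℕ, ∀ k : ℕ, K ≤ k → ∀ n : ℕ, n = Nat.clog 2 k →
      ∃ N₀ : ℕ, ∀ N : ℕ, N₀ ≤ N → ∃ A : Finset ℕ, A ⊆ Finset.Icc 1 N ∧
        (∀ a d : ℕ, 0 < d → ¬ ∀ j < k, a + j * d ∈ A) ∧
        (N : ℝ) * Real.exp (-((n : ℝ) ^ ((23 : ℝ) / 24) * (2 : ℝ) ^ (((n : ℝ) - 1) / 2) *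
          Real.log N ^ ((1 : ℝ) / n))) ≤ A.card := by
  obtain ⟨n0, hP⟩ := P1
  refine ⟨2 ^ (max n0 4096) + 2, fun k hk n hn => ?_⟩
  have hkpos : 0 < 2 ^ (max n0 4096) := by positivity
  have hnk : 2 ^ (n - 1) < k := by
    rw [hn]; exact Nat.pow_pred_clog_lt_self (by norm_num) (by omega)
  have hnbig : max n0 4096 < n := by
    by_contra hcon
    push Not at hcon
    have h3 : k ≤ 2 ^ Nat.clog 2 k := Nat.le_pow_clog (by norm_num) k
    rw [← hn] at h3
    have h4 : 2 ^ n ≤ 2 ^ (max n0 4096) := Nat.pow_le_pow_right (by norm_num) hcon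
    omega
  have hn1 : n0 ≤ n := (le_max_left _ _).trans hnbig.le
  have hn2 : 4096 ≤ n := (le_max_right _ _).trans hnbig.le
  have hlog : 0 < Real.log 2 := Real.log_pos (by norm_num)
  have hnR : (1 : ℝ) ≤ n := by exact_mod_cast (by omega : 1 ≤ n)
  have hnR0 : (0 : ℝ) < n := by linarith
  set γ : ℝ := (n : ℝ) ^ (-((1 : ℝ) / 24)) with hγ
  have hγ0 : 0 < γ := Real.rpow_pos_of_pos hnR0 _
  have hγ1 : γ ≤ 1 := Real.rpow_le_one_of_one_le_of_nonpos hnR (by norm_num)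
  have hγ12 : (Real.sqrt n)⁻¹ = γ ^ 12 := by
    rw [hγ, ← Real.rpow_natCast, ← Real.rpow_mul hnR0.le, Real.sqrt_eq_rpow, ← Real.rpow_neg hnR0.le]
    norm_num
  let good : ℕ → Prop := fun j => 2 * Nat.log 2 n + 12 ≤ j ∧ 10 * j ≤ n - 1
  classical
  let e : ℕ → ℝ := fun j => if good j then γ ^ 12 else 1
  have he0 : ∀ j, 0 < e j := by
    intro j
    simp only [e]
    split_ifs
    · positivity
    · exact one_pos
  have hcost : ∀ j, j + 2 ≤ n → 0 < e j * (((2 ^ j : ℕ) : ℝ) * Real.log 2) ∧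
      Cost k (2 ^ j) (e j * (((2 ^ j : ℕ) : ℝ) * Real.log 2)) := by
    intro j hj
    refine ⟨mul_pos (he0 j) (mul_pos (by positivity) hlog), ?_⟩
    by_cases hg : good j
    · have h1 : e j = γ ^ 12 := if_pos hg
      have h2 := hP n hn1 k hnk j hg.1 hg.2
      rw [hγ12, mul_assoc] at h2
      rw [h1]
      exact h2
    · have h1 : e j = 1 := if_neg hg
      rw [h1, one_mul]
      exact cost_interval k (2 ^ j)
  have hT := H203.tower k n (by omega) hnk (fun j => e j * (((2 ^ j : ℕ) : ℝ) * Real.log 2)) hcost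
  have hA : Asy k 1 n (((2 * γ) / 2) ^ n * 2 ^ (n * (n - 1) / 2) * Real.log 2 ^ (n - 1)) := by
    refine H203.Asy.mono' hT (Finset.prod_nonneg (fun j _ => ?_)) ?_
    · have := he0 j
      positivity
    · have e1 : ∏ j ∈ range (n - 1), (2 * (e j * (((2 ^ j : ℕ) : ℝ) * Real.log 2))) =
          (∏ j ∈ range (n - 1), e j) * ∏ j ∈ range (n - 1),
            (2 * (((2 ^ j : ℕ) : ℝ) * Real.log 2)) := by
        rw [← Finset.prod_mul_distrib]
        apply Finset.prod_congr rfl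
        intro j _
        ring
      rw [e1, H203.prod_two_pow, mul_assoc]
      apply mul_le_mul_of_nonneg_right _ (by positivity)
      set S : Finset ℕ := (range (n - 1)).filter good with hS
      have e2 : ∏ j ∈ range (n - 1), e j = (γ ^ 12) ^ S.card := by
        simp only [e]
        rw [Finset.prod_ite, Finset.prod_const, Finset.prod_const_one, mul_one]
      have hScard : n ≤ 12 * S.card := by
        have h1 : Finset.Icc (2 * Nat.log 2 n + 12) ((n - 1) / 10) ⊆ S := by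
          intro j hj
          rw [Finset.mem_Icc] at hj
          rw [hS, Finset.mem_filter, Finset.mem_range]
          exact ⟨by omega, hj.1, by omega⟩
        have h2 := Finset.card_le_card h1
        rw [Nat.card_Icc] at h2
        have h3 := count_big hn2
        omega
      rw [e2, ← pow_mul, mul_div_cancel_left₀ γ (by norm_num : (2 : ℝ) ≠ 0)]
      exact pow_le_pow_of_le_one hγ0.le hγ1 hScard
  obtain ⟨N0, hN0⟩ := hA (1 / 10) (by norm_num)
  refine ⟨N0, fun N hN => ?_⟩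
  apply H203.nat_of_dens
  refine (hN0 N hN).mono ?_
  apply Real.exp_le_exp.2
  apply neg_le_neg
  have h := H203.expo n (by omega) (2 * γ) (Real.log N) (by positivity) (Real.log_natCast_nonneg N)
  have hL : 0 ≤ Real.log N ^ ((1 : ℝ) / n) := Real.rpow_nonneg (Real.log_natCast_nonneg N) _
  have e3 : (n : ℝ) ^ ((23 : ℝ) / 24) = γ * n := by
    rw [hγ]
    nth_rewrite 3 [← Real.rpow_one (n : ℝ)]
    rw [← Real.rpow_add hnR0]
    norm_num
  rw [e3]
  have h2 := log_two_small (n := n) (by omega)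
  set X := ((2 * γ / 2) ^ n * 2 ^ (n * (n - 1) / 2) * Real.log 2 ^ (n - 1) * Real.log N) ^
    ((1 : ℝ) / n) with hX
  set Lr := Real.log N ^ ((1 : ℝ) / n) with hLr
  set P := (2 : ℝ) ^ (((n : ℝ) - 1) / 2) with hPd
  have hP0 : 0 < P := Real.rpow_pos_of_pos (by norm_num) _
  have h3 : (1 + 1 / 10) * (n : ℝ) * X =
      (11 / 10 * Real.log 2 ^ (((n : ℝ) - 1) / n)) * (γ * n * P * Lr) := by
    have : (n : ℝ) * X = γ * ((n : ℝ) * P * Real.log 2 ^ (((n : ℝ) - 1) / n)) * Lr := by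
      linarith
    calc (1 + 1 / 10) * (n : ℝ) * X = (11 / 10) * ((n : ℝ) * X) := by ring
      _ = _ := by rw [this]; ring
  rw [h3]
  calc (11 / 10 * Real.log 2 ^ (((n : ℝ) - 1) / n)) * (γ * n * P * Lr) ≤
      1 * (γ * n * P * Lr) := mul_le_mul_of_nonneg_right h2 (by positivity)
    _ = γ * n * P * Lr := one_mul _

end Vale.Agent.P057.H327
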